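import Vale.Agent.Lib.P074.Third.Defs

/-!
# P074: partitions of `[0,1]` avoiding a finite set, and finiteness of the set of non-injective
points on a segment of site families (helper lemmas for the mixed second difference argument).
-/

namespace Vale.Agent.Lib.P074
namespace Partition

variable {d : ℕ}

/-! ### Partitions of `[0,1]` avoiding a finite set -/

lemma exists_partition (B : Set ℝ) (hB : B.Finite) (h0 : (0 : ℝ) ∉ B) (h1 : (1 : ℝ) ∉ B)
    (η : ℝ) (hη : 0 < η) :
    ∃ (J : ℕ) (t : ℕ → ℝ), t 0 = 0 ∧ t J = 1 ∧ (∀ j < J, t j < t (j + 1)) ∧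
      (∀ j < J, t (j + 1) - t j ≤ η) ∧ ∀ j ≤ J, t j ∉ B := by
  obtain ⟨J₀, hJ₀⟩ := exists_nat_gt (2 / η)
  set J : ℕ := J₀ + 2 with hJ
  have hJ2 : (2 : ℝ) ≤ (J : ℝ) := by rw [hJ]; push_cast; linarith [Nat.cast_nonneg (α := ℝ) J₀]
  have hJpos : (0 : ℝ) < (J : ℝ) := by linarith
  have hJη : 2 / (J : ℝ) < η := by
    have : (2 / η) < (J : ℝ) := by rw [hJ]; push_cast; linarith
    rw [div_lt_iff₀ hJpos]
    rw [div_lt_iff₀ hη] at this
    linarith
  have hinv : (0 : ℝ) < 1 / (J : ℝ) := by positivity
  -- the bad shifts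
  have hS : (⋃ j ∈ Finset.range J, (fun b : ℝ => b - (j : ℝ) / (J : ℝ)) '' B).Finite :=
    Set.Finite.biUnion (Finset.finite_toSet _) fun j _ => hB.image _
  obtain ⟨τ, hτ, hτS⟩ := (Set.Ioo_infinite hinv).exists_notMem_finite hS
  obtain ⟨hτ0, hτ1⟩ := hτ
  refine ⟨J, fun j => if j = 0 then 0 else if J ≤ j then 1 else (j : ℝ) / (J : ℝ) + τ,
    by simp, ?_, ?_, ?_, ?_⟩
  · have : J ≠ 0 := by omega
    simp [this]
  · intro j hj
    by_cases hj0 : j = 0
    · subst hj0
      have : ¬ (J ≤ 0 + 1) := by omega
      simp only [if_true, zero_add, one_ne_zero, if_false, this]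
      push_cast
      positivity
    · by_cases hjJ : J ≤ j + 1
      · have hjeq : j + 1 = J := by omega
        have : ¬ (J ≤ j) := by omega
        simp only [hj0, if_false, this, Nat.succ_ne_zero, hjJ, if_true]
        have : (j : ℝ) = (J : ℝ) - 1 := by rw [← hjeq]; push_cast; ring
        rw [this, sub_div, div_self hJpos.ne']
        linarith
      · have : ¬ (J ≤ j) := by omega
        simp only [hj0, if_false, this, Nat.succ_ne_zero, hjJ]
        push_cast
        have : (j : ℝ) / J < ((j : ℝ) + 1) / J := by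
          apply div_lt_div_of_pos_right _ hJpos
          linarith
        linarith
  · intro j hj
    by_cases hj0 : j = 0
    · subst hj0
      have : ¬ (J ≤ 0 + 1) := by omega
      simp only [if_true, zero_add, one_ne_zero, if_false, this]
      push_cast
      have : (2 : ℝ) / J = 1 / J + 1 / J := by ring
      linarith
    · by_cases hjJ : J ≤ j + 1
      · have hjeq : j + 1 = J := by omega
        have : ¬ (J ≤ j) := by omega
        simp only [hj0, if_false, this, Nat.succ_ne_zero, hjJ, if_true]
        have : (j : ℝ) = (J : ℝ) - 1 := by rw [← hjeq]; push_cast; ring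
        rw [this, sub_div, div_self hJpos.ne']
        have : (2 : ℝ) / J = 1 / J + 1 / J := by ring
        linarith
      · have : ¬ (J ≤ j) := by omega
        simp only [hj0, if_false, this, Nat.succ_ne_zero, hjJ]
        push_cast
        have : ((j : ℝ) + 1) / J = (j : ℝ) / J + 1 / J := by ring
        have : (2 : ℝ) / J = 1 / J + 1 / J := by ring
        linarith
  · intro j hj
    by_cases hj0 : j = 0
    · subst hj0; simpa using h0
    · by_cases hjJ : J ≤ j
      · simp only [hj0, if_false, hjJ, if_true]; exact h1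
      · simp only [hj0, if_false, hjJ]
        intro hmem
        apply hτS
        simp only [Set.mem_iUnion, Set.mem_image, Finset.mem_range, exists_prop]
        exact ⟨j, by omega, _, hmem, by ring⟩

/-- Only finitely many points of the segment between two injective site families fail to be
injective. -/
lemma bad_finite {n : ℕ} (y y' : Fin (n + 1) → E d) (hy : Function.Injective y) :
    {t : ℝ | ¬ Function.Injective (fun k => y k + t • (y' k - y k))}.Finite := by
  have hsub : {t : ℝ | ¬ Function.Injective (fun k => y k + t • (y' k - y k))} ⊆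
      ⋃ p : Fin (n + 1) × Fin (n + 1),
        {t : ℝ | p.1 ≠ p.2 ∧ y p.1 + t • (y' p.1 - y p.1) = y p.2 + t • (y' p.2 - y p.2)} := by
    intro t ht
    simp only [Function.Injective] at ht
    push Not at ht
    obtain ⟨j, k, hjk, hne⟩ := ht
    exact Set.mem_iUnion.2 ⟨(j, k), hne, hjk⟩
  refine (Set.finite_iUnion fun p => ?_).subset hsub
  apply Set.Subsingleton.finite
  intro t ht t' ht'
  obtain ⟨hne, e1⟩ := ht
  obtain ⟨-, e2⟩ := ht'
  by_contra htt
  have h3 : (t - t') • ((y' p.1 - y p.1) - (y' p.2 - y p.2)) = 0 := by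
    have : (t - t') • ((y' p.1 - y p.1) - (y' p.2 - y p.2))
        = (y p.1 + t • (y' p.1 - y p.1)) - (y p.2 + t • (y' p.2 - y p.2))
          - ((y p.1 + t' • (y' p.1 - y p.1)) - (y p.2 + t' • (y' p.2 - y p.2))) := by
      simp only [sub_smul, smul_sub]; abel
    rw [this, e1, e2]; simp
  rcases smul_eq_zero.1 h3 with h | h
  · exact htt (sub_eq_zero.1 h)
  · have h4 : y' p.1 - y p.1 = y' p.2 - y p.2 := sub_eq_zero.1 h
    rw [h4] at e1
    exact hne (hy (add_right_cancel e1))

end Partition
end Vale.Agent.Lib.P074
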