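import Vale.Agent.Lib.P074.Third.Basic
import Vale.Agent.Lib.P074.helper73.Partition

/-!
# P074: the weights of a power diagram are Lipschitz in the sites

`lip_of_centroid`: `CentroidStatement d → ExStatement d → ContStatement d → LipStatement d`
(mixed second difference of the concave–convex value function `M(m, y)`).
-/

namespace Vale.Agent.Lib.P074
namespace Lip

open MeasureTheory Finset

variable {d : ℕ}

/-- The integral of the piecewise affine potential. -/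
noncomputable def Nf (K : Set (E d)) {n : ℕ} (y : Fin (n + 1) → E d) (ψ : Fin (n + 1) → ℝ) : ℝ :=
  ∫ x, ppot y ψ x ∂(unif K)

/-- The value of the dual problem at a diagram. -/
noncomputable def Vf (K : Set (E d)) {n : ℕ} (y : Fin (n + 1) → E d) (ψ : Fin (n + 1) → ℝ) : ℝ :=
  Nf K y ψ + ∑ k, cmass K y ψ k * ψ k

/-! ### The measure-theoretic inputs -/

lemma continuous_ppot {n : ℕ} (y : Fin (n + 1) → E d) (ψ : Fin (n + 1) → ℝ) :
    Continuous (ppot y ψ) := by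
  unfold ppot
  exact Continuous.finset_sup'_apply Finset.univ_nonempty (fun k _ => by fun_prop)

lemma integrable_unif_of_continuous {K : Set (E d)} (hK : IsCompact K)
    (hint : (interior K).Nonempty) {F : Type*} [NormedAddCommGroup F] {f : E d → F}
    (hf : Continuous f) : Integrable f (unif K) := by
  unfold unif
  refine Integrable.smul_measure ?_ ?_
  · exact hf.continuousOn.integrableOn_compact hK
  · exact ENNReal.inv_ne_top.mpr (volume_pos_of_interior hint).ne'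

lemma norm_cmom_le {K : Set (E d)} (hK : IsCompact K) (hint : (interior K).Nonempty) {D : ℝ}
    (hD : ∀ x ∈ K, ‖x‖ ≤ D) {n : ℕ} (y : Fin (n + 1) → E d) (ψ : Fin (n + 1) → ℝ)
    (k : Fin (n + 1)) : ‖cmom K y ψ k‖ ≤ D * cmass K y ψ k := by
  have hprob := unif_isProbabilityMeasure hK hint
  unfold cmom cmass
  exact norm_setIntegral_le_of_norm_le_const (measure_lt_top _ _)
    (fun x hx => hD x (pcell_subset K y ψ k hx))

lemma subgrad {K : Set (E d)} (hK : IsCompact K)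
    (hint : (interior K).Nonempty) {n : ℕ} (y y2 : Fin (n + 1) → E d) (ψ ψ2 : Fin (n + 1) → ℝ)
    (hy : Function.Injective y) :
    Nf K y ψ - ∑ k, cmass K y ψ k * (ψ2 k - ψ k) + ∑ k, inner ℝ (cmom K y ψ k) (y2 k - y k)
      ≤ Nf K y2 ψ2 := by
  have hprob := unif_isProbabilityMeasure hK hint
  have hi1 : Integrable (ppot y ψ) (unif K) :=
    integrable_unif_of_continuous hK hint (continuous_ppot y ψ)
  have hi2 : Integrable (ppot y2 ψ2) (unif K) :=
    integrable_unif_of_continuous hK hint (continuous_ppot y2 ψ2)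
  have hid : Integrable (fun x : E d => x) (unif K) :=
    integrable_unif_of_continuous hK hint continuous_id
  unfold Nf
  rw [integral_eq_sum_pcell hK hy ψ _ hi1, integral_eq_sum_pcell hK hy ψ _ hi2,
    ← Finset.sum_sub_distrib, ← Finset.sum_add_distrib]
  refine Finset.sum_le_sum fun k _ => ?_
  have e1 : inner ℝ (cmom K y ψ k) (y2 k - y k)
      = ∫ x in pcell K y ψ k, inner ℝ x (y2 k - y k) ∂(unif K) := by
    unfold cmom
    rw [real_inner_comm, ← integral_inner hid.integrableOn]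
    exact integral_congr_ae (Filter.Eventually.of_forall fun x => real_inner_comm _ _)
  have e2 : cmass K y ψ k * (ψ2 k - ψ k) = ∫ _ in pcell K y ψ k, (ψ2 k - ψ k) ∂(unif K) :=
    (setIntegral_const_pcell hK hint y ψ k _).symm
  have hin : Integrable (fun x : E d => inner ℝ x (y2 k - y k)) (unif K) :=
    integrable_unif_of_continuous hK hint (by fun_prop)
  have hA : IntegrableOn (fun x : E d => ppot y ψ x - (ψ2 k - ψ k)) (pcell K y ψ k) (unif K) :=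
    hi1.integrableOn.sub (integrable_const _).integrableOn
  have hB : IntegrableOn (fun x : E d => inner ℝ x (y2 k - y k)) (pcell K y ψ k) (unif K) :=
    hin.integrableOn
  have e3 : ∫ x in pcell K y ψ k, (ppot y ψ x - (ψ2 k - ψ k) + inner ℝ x (y2 k - y k)) ∂(unif K)
      = ∫ x in pcell K y ψ k, ppot y ψ x ∂(unif K) - cmass K y ψ k * (ψ2 k - ψ k)
        + inner ℝ (cmom K y ψ k) (y2 k - y k) := by
    rw [integral_add hA hB, integral_sub hi1.integrableOn (integrable_const _).integrableOn,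
      ← e1, ← e2]
  rw [← e3]
  refine setIntegral_mono_on (hA.add hB) hi2.integrableOn
    (measurableSet_pcell hK.isClosed y ψ k) fun x hx => ?_
  have h1 := ppot_eq_of_mem hx
  have h2 := ppot_ge y2 ψ2 x k
  rw [inner_sub_right]
  linarith

/-! ### Consequences of the subgradient inequality -/

lemma value_sites {K : Set (E d)} (hK : IsCompact K)
    (hint : (interior K).Nonempty) {n : ℕ} (y₁ y₂ : Fin (n + 1) → E d) (ψ₁ ψ₂ : Fin (n + 1) → ℝ)
    (hy : Function.Injective y₁) (hm : ∀ k, cmass K y₂ ψ₂ k = cmass K y₁ ψ₁ k) :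
    ∑ k, inner ℝ (cmom K y₁ ψ₁ k) (y₂ k - y₁ k) ≤ Vf K y₂ ψ₂ - Vf K y₁ ψ₁ := by
  have h := subgrad hK hint y₁ y₂ ψ₁ ψ₂ hy
  unfold Vf
  simp only [hm]
  have e : ∑ k, cmass K y₁ ψ₁ k * (ψ₂ k - ψ₁ k)
      = ∑ k, cmass K y₁ ψ₁ k * ψ₂ k - ∑ k, cmass K y₁ ψ₁ k * ψ₁ k := by
    rw [← Finset.sum_sub_distrib]
    exact Finset.sum_congr rfl fun k _ => by ring
  linarith

lemma value_mass {K : Set (E d)} (hK : IsCompact K)
    (hint : (interior K).Nonempty) {n : ℕ} (y : Fin (n + 1) → E d) (ψ₁ ψ₂ : Fin (n + 1) → ℝ)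
    (hy : Function.Injective y) :
    ∑ k, (cmass K y ψ₂ k - cmass K y ψ₁ k) * ψ₂ k ≤ Vf K y ψ₂ - Vf K y ψ₁ := by
  have h := subgrad hK hint y y ψ₁ ψ₂ hy
  simp only [sub_self, inner_zero_right, Finset.sum_const_zero, add_zero] at h
  unfold Vf
  have e1 : ∑ k, cmass K y ψ₁ k * (ψ₂ k - ψ₁ k)
      = ∑ k, cmass K y ψ₁ k * ψ₂ k - ∑ k, cmass K y ψ₁ k * ψ₁ k := by
    rw [← Finset.sum_sub_distrib]
    exact Finset.sum_congr rfl fun k _ => by ring
  have e2 : ∑ k, (cmass K y ψ₂ k - cmass K y ψ₁ k) * ψ₂ k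
      = ∑ k, cmass K y ψ₂ k * ψ₂ k - ∑ k, cmass K y ψ₁ k * ψ₂ k := by
    rw [← Finset.sum_sub_distrib]
    exact Finset.sum_congr rfl fun k _ => by ring
  linarith

/-- Cauchy–Schwarz in the weighted form used below. -/
lemma weighted_cs {n : ℕ} (m : Fin (n + 1) → ℝ) (hm : ∀ k, 0 < m k) (u v : Fin (n + 1) → E d) :
    |∑ k, inner ℝ (u k) (v k)|
      ≤ Real.sqrt (∑ k, ‖u k‖ ^ 2 / m k) * Real.sqrt (∑ k, m k * ‖v k‖ ^ 2) := by
  have h1 : |∑ k, inner ℝ (u k) (v k)|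
      ≤ ∑ k, (‖u k‖ / Real.sqrt (m k)) * (Real.sqrt (m k) * ‖v k‖) := by
    refine (Finset.abs_sum_le_sum_abs _ _).trans (Finset.sum_le_sum fun k _ => ?_)
    have hs : 0 < Real.sqrt (m k) := Real.sqrt_pos.2 (hm k)
    calc |inner ℝ (u k) (v k)| ≤ ‖u k‖ * ‖v k‖ := abs_real_inner_le_norm _ _
      _ = (‖u k‖ / Real.sqrt (m k)) * (Real.sqrt (m k) * ‖v k‖) := by field_simp
  refine h1.trans ((Real.sum_mul_le_sqrt_mul_sqrt _ _ _).trans_eq ?_)
  congr 2
  · exact Finset.sum_congr rfl fun k _ => by rw [div_pow, Real.sq_sqrt (hm k).le]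
  · exact Finset.sum_congr rfl fun k _ => by rw [mul_pow, Real.sq_sqrt (hm k).le]

/-! ### The mixed second difference -/

lemma mixed {K : Set (E d)} (hK : IsCompact K) (hconv : Convex ℝ K)
    (hint : (interior K).Nonempty) (hex : ExStatement d) {C₀ : ℝ} (hC₀ : 0 ≤ C₀)
    (hcen : ∀ (n : ℕ) (y : Fin (n + 1) → E d) (ψ ψ' : Fin (n + 1) → ℝ),
      Function.Injective y → (∀ k, 0 < cmass K y ψ k) →
      (∀ k, |cmass K y ψ' k - cmass K y ψ k| ≤ cmass K y ψ k / 2) →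
      ∑ k, ‖cmom K y ψ' k - cmom K y ψ k‖ ^ 2 / cmass K y ψ k
        ≤ C₀ * ∑ k, (cmass K y ψ' k - cmass K y ψ k) ^ 2 / cmass K y ψ k)
    {D : ℝ} (hD : ∀ x ∈ K, ‖x‖ ≤ D) {n : ℕ} (y y' : Fin (n + 1) → E d)
    (ψ' ψe : Fin (n + 1) → ℝ) (m μ : Fin (n + 1) → ℝ) (hy : Function.Injective y)
    (hy' : Function.Injective y') (hmpos : ∀ k, 0 < m k) (hmsum : ∑ k, m k = 1)
    (hμsum : ∑ k, μ k = 1) (hμ : ∀ k, |μ k - m k| ≤ m k / 2)
    (hm' : ∀ k, cmass K y' ψ' k = m k) (hme : ∀ k, cmass K y ψe k = μ k)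
    (η : ℝ) (hη : 0 < η) :
    - (Real.sqrt C₀ * Real.sqrt (∑ k, (μ k - m k) ^ 2 / m k)
          * Real.sqrt (∑ k, m k * ‖y' k - y k‖ ^ 2))
      - η * (2 * D * ∑ k, m k * ‖y' k - y k‖) ≤ ∑ k, (μ k - m k) * (ψ' k - ψe k) := by
  classical
  obtain ⟨dy, hdy⟩ : ∃ dy : Fin (n + 1) → E d, ∀ k, dy k = y' k - y k := ⟨_, fun _ => rfl⟩
  obtain ⟨Y, hY⟩ : ∃ Y : ℝ → Fin (n + 1) → E d, ∀ t k, Y t k = y k + t • (y' k - y k) :=
    ⟨_, fun _ _ => rfl⟩
  have hYfun : ∀ t, Y t = fun k => y k + t • (y' k - y k) := fun t => funext (hY t)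
  have hY0 : Y 0 = y := by funext k; rw [hY]; simp
  have hY1 : Y 1 = y' := by funext k; rw [hY]; simp
  have hB := Partition.bad_finite y y' hy
  have h0B : (0 : ℝ) ∉ {t : ℝ | ¬ Function.Injective (fun k => y k + t • (y' k - y k))} := by
    intro h
    apply h
    rw [← hYfun 0, hY0]
    exact hy
  have h1B : (1 : ℝ) ∉ {t : ℝ | ¬ Function.Injective (fun k => y k + t • (y' k - y k))} := by
    intro h
    apply h
    rw [← hYfun 1, hY1]
    exact hy'
  obtain ⟨J, t, ht0, htJ, hinc, hstep, hgood⟩ := Partition.exists_partition _ hB h0B h1B η hη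
  have hinj : ∀ j ≤ J, Function.Injective (Y (t j)) := by
    intro j hj
    have := hgood j hj
    rw [hYfun (t j)]
    exact not_not.1 this
  have hμpos : ∀ k, 0 < μ k := fun k => by
    have := abs_le.1 (hμ k)
    linarith [hmpos k]
  -- the two families of diagrams along the partition
  have ex0 : ∀ j, ∃ ψ0 : Fin (n + 1) → ℝ,
      j ≤ J → ((∀ k, cmass K (Y (t j)) ψ0 k = m k) ∧ (j = J → ψ0 = ψ')) := by
    intro j
    by_cases hj : j ≤ J
    · by_cases hjJ : j = J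
      · refine ⟨ψ', fun _ => ⟨?_, fun _ => rfl⟩⟩
        rw [hjJ, htJ, hY1]
        exact hm'
      · obtain ⟨ψ0, h0⟩ := hex K hK hconv hint n (Y (t j)) (hinj j hj) m hmpos hmsum
        exact ⟨ψ0, fun _ => ⟨h0, fun h => absurd h hjJ⟩⟩
    · exact ⟨ψ', fun h => absurd h hj⟩
  have exE : ∀ j, ∃ ψE : Fin (n + 1) → ℝ,
      j ≤ J → ((∀ k, cmass K (Y (t j)) ψE k = μ k) ∧ (j = 0 → ψE = ψe)) := by
    intro j
    by_cases hj : j ≤ J
    · by_cases hj0 : j = 0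
      · refine ⟨ψe, fun _ => ⟨?_, fun _ => rfl⟩⟩
        rw [hj0, ht0, hY0]
        exact hme
      · obtain ⟨ψE, hE⟩ := hex K hK hconv hint n (Y (t j)) (hinj j hj) μ hμpos hμsum
        exact ⟨ψE, fun _ => ⟨hE, fun h => absurd h hj0⟩⟩
    · exact ⟨ψe, fun h => absurd h hj⟩
  choose ψ0 hψ0 using ex0
  choose ψE hψE using exE
  obtain ⟨V0, hV0⟩ : ∃ V0 : ℕ → ℝ, ∀ j, V0 j = Vf K (Y (t j)) (ψ0 j) := ⟨_, fun _ => rfl⟩
  obtain ⟨VE, hVE⟩ : ∃ VE : ℕ → ℝ, ∀ j, VE j = Vf K (Y (t j)) (ψE j) := ⟨_, fun _ => rfl⟩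
  obtain ⟨P0, hP0⟩ : ∃ P0 : ℕ → ℝ,
      ∀ j, P0 j = ∑ k, inner ℝ (cmom K (Y (t j)) (ψ0 j) k) (dy k) := ⟨_, fun _ => rfl⟩
  obtain ⟨PE, hPE⟩ : ∃ PE : ℕ → ℝ,
      ∀ j, PE j = ∑ k, inner ℝ (cmom K (Y (t j)) (ψE j) k) (dy k) := ⟨_, fun _ => rfl⟩
  obtain ⟨Q, hQdef⟩ : ∃ Q : ℝ, Q = Real.sqrt C₀ * Real.sqrt (∑ k, (μ k - m k) ^ 2 / m k)
      * Real.sqrt (∑ k, m k * ‖dy k‖ ^ 2) := ⟨_, rfl⟩
  have hQ : 0 ≤ Q := by rw [hQdef]; positivity
  have hYdiff : ∀ s s' k, Y s' k - Y s k = (s' - s) • dy k := by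
    intro s s' k
    rw [hY, hY, hdy, add_sub_add_left_eq_sub, ← sub_smul]
  have hsum_smul : ∀ (τ : ℝ) (p : Fin (n + 1) → E d),
      ∑ k, inner ℝ (p k) (τ • dy k) = τ * ∑ k, inner ℝ (p k) (dy k) := by
    intro τ p
    rw [Finset.mul_sum]
    exact Finset.sum_congr rfl fun k _ => by rw [real_inner_smul_right]
  have h3 : ∀ j < J, (t (j + 1) - t j) * PE j ≤ VE (j + 1) - VE j := by
    intro j hj
    have h := value_sites hK hint (Y (t j)) (Y (t (j + 1))) (ψE j) (ψE (j + 1))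
      (hinj j hj.le) (fun k => by rw [(hψE (j + 1) hj).1 k, (hψE j hj.le).1 k])
    simp only [hYdiff] at h
    rw [hsum_smul] at h
    rw [hPE, hVE, hVE]
    exact h
  have h5 : ∀ j < J, (t (j + 1) - t j) * P0 j ≤ V0 (j + 1) - V0 j := by
    intro j hj
    have h := value_sites hK hint (Y (t j)) (Y (t (j + 1))) (ψ0 j) (ψ0 (j + 1))
      (hinj j hj.le) (fun k => by rw [(hψ0 (j + 1) hj).1 k, (hψ0 j hj.le).1 k])
    simp only [hYdiff] at h
    rw [hsum_smul] at h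
    rw [hP0, hV0, hV0]
    exact h
  have h4 : ∀ j < J, -((t (j + 1) - t j) * P0 (j + 1)) ≤ V0 j - V0 (j + 1) := by
    intro j hj
    have h := value_sites hK hint (Y (t (j + 1))) (Y (t j)) (ψ0 (j + 1)) (ψ0 j)
      (hinj (j + 1) hj) (fun k => by rw [(hψ0 j hj.le).1 k, (hψ0 (j + 1) hj).1 k])
    simp only [hYdiff] at h
    rw [hsum_smul] at h
    rw [hP0, hV0, hV0]
    linarith
  have h6 : ∀ j ≤ J, -Q ≤ PE j - P0 j := by
    intro j hj
    have hc := hcen n (Y (t j)) (ψ0 j) (ψE j) (hinj j hj)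
      (fun k => by rw [(hψ0 j hj).1 k]; exact hmpos k)
      (fun k => by rw [(hψ0 j hj).1 k, (hψE j hj).1 k]; exact hμ k)
    simp only [(hψ0 j hj).1, (hψE j hj).1] at hc
    have hcs := weighted_cs m hmpos
      (fun k => cmom K (Y (t j)) (ψE j) k - cmom K (Y (t j)) (ψ0 j) k) dy
    have e : PE j - P0 j
        = ∑ k, inner ℝ (cmom K (Y (t j)) (ψE j) k - cmom K (Y (t j)) (ψ0 j) k) (dy k) := by
      rw [hPE, hP0, ← Finset.sum_sub_distrib]
      exact Finset.sum_congr rfl fun k _ => by rw [inner_sub_left]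
    rw [e]
    have h7 : Real.sqrt (∑ k, ‖cmom K (Y (t j)) (ψE j) k - cmom K (Y (t j)) (ψ0 j) k‖ ^ 2 / m k)
        ≤ Real.sqrt C₀ * Real.sqrt (∑ k, (μ k - m k) ^ 2 / m k) := by
      rw [← Real.sqrt_mul hC₀]
      exact Real.sqrt_le_sqrt hc
    have h8 := (abs_le.1 hcs).1
    have h9 := mul_le_mul_of_nonneg_right h7 (Real.sqrt_nonneg (∑ k, m k * ‖dy k‖ ^ 2))
    rw [hQdef]
    linarith
  have hτpos : ∀ j < J, 0 < t (j + 1) - t j := fun j hj => sub_pos.2 (hinc j hj)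
  have hβ : ∀ j < J, 0 ≤ P0 (j + 1) - P0 j := by
    intro j hj
    have a := h4 j hj
    have b := h5 j hj
    have hτ := hτpos j hj
    by_contra hneg
    push Not at hneg
    nlinarith
  have hterm : ∀ j ∈ Finset.range J,
      -(t (j + 1) - t j) * Q - η * (P0 (j + 1) - P0 j)
        ≤ (VE (j + 1) - V0 (j + 1)) - (VE j - V0 j) := by
    intro j hj
    have hj' := Finset.mem_range.1 hj
    have a := h3 j hj'
    have b := h4 j hj'
    have c := h6 j hj'.le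
    have e := hβ j hj'
    have f := hstep j hj'
    have g := hτpos j hj'
    have i1 := mul_le_mul_of_nonneg_right f e
    have i2 := mul_le_mul_of_nonneg_left c g.le
    nlinarith
  have hsum := Finset.sum_le_sum hterm
  rw [Finset.sum_range_sub (fun j => VE j - V0 j)] at hsum
  have hL : ∑ j ∈ Finset.range J, (-(t (j + 1) - t j) * Q - η * (P0 (j + 1) - P0 j))
      = -Q - η * (P0 J - P0 0) := by
    rw [Finset.sum_sub_distrib, ← Finset.mul_sum, Finset.sum_range_sub, ← Finset.sum_mul]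
    have : ∑ j ∈ Finset.range J, -(t (j + 1) - t j) = -1 := by
      rw [Finset.sum_neg_distrib, Finset.sum_range_sub, htJ, ht0]
      ring
    rw [this]
    ring
  have hP : ∀ j ≤ J, |P0 j| ≤ D * ∑ k, m k * ‖dy k‖ := by
    intro j hj
    rw [hP0, Finset.mul_sum]
    refine (Finset.abs_sum_le_sum_abs _ _).trans (Finset.sum_le_sum fun k _ => ?_)
    have h1 := norm_cmom_le hK hint hD (Y (t j)) (ψ0 j) k
    rw [(hψ0 j hj).1 k] at h1
    calc |inner ℝ (cmom K (Y (t j)) (ψ0 j) k) (dy k)|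
        ≤ ‖cmom K (Y (t j)) (ψ0 j) k‖ * ‖dy k‖ := abs_real_inner_le_norm _ _
      _ ≤ (D * m k) * ‖dy k‖ := mul_le_mul_of_nonneg_right h1 (norm_nonneg _)
      _ = D * (m k * ‖dy k‖) := by ring
  have hend1 : VE J - V0 J ≤ ∑ k, (μ k - m k) * ψ' k := by
    have h := value_mass hK hint (Y (t J)) (ψE J) (ψ0 J) (hinj J le_rfl)
    have hA : ∀ k, cmass K (Y (t J)) (ψ0 J) k = m k := (hψ0 J le_rfl).1
    have hA' : ∀ k, cmass K (Y (t J)) (ψE J) k = μ k := (hψE J le_rfl).1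
    simp only [hA, hA'] at h
    rw [(hψ0 J le_rfl).2 rfl] at h
    have e : ∑ k, (m k - μ k) * ψ' k = - ∑ k, (μ k - m k) * ψ' k := by
      rw [← Finset.sum_neg_distrib]
      exact Finset.sum_congr rfl fun k _ => by ring
    rw [hVE, hV0, (hψ0 J le_rfl).2 rfl]
    linarith
  have hend0 : ∑ k, (μ k - m k) * ψe k ≤ VE 0 - V0 0 := by
    have h := value_mass hK hint (Y (t 0)) (ψ0 0) (ψE 0) (hinj 0 (Nat.zero_le _))
    have hA : ∀ k, cmass K (Y (t 0)) (ψ0 0) k = m k := (hψ0 0 (Nat.zero_le _)).1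
    have hA' : ∀ k, cmass K (Y (t 0)) (ψE 0) k = μ k := (hψE 0 (Nat.zero_le _)).1
    simp only [hA, hA'] at h
    rw [(hψE 0 (Nat.zero_le _)).2 rfl] at h
    rw [hVE, hV0, (hψE 0 (Nat.zero_le _)).2 rfl]
    exact h
  have hfin : ∑ k, (μ k - m k) * (ψ' k - ψe k)
      = ∑ k, (μ k - m k) * ψ' k - ∑ k, (μ k - m k) * ψe k := by
    rw [← Finset.sum_sub_distrib]
    exact Finset.sum_congr rfl fun k _ => by ring
  have hp1 := hP J le_rfl
  have hp0 := hP 0 (Nat.zero_le _)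
  have hPP : P0 J - P0 0 ≤ 2 * D * ∑ k, m k * ‖dy k‖ := by
    linarith [(abs_le.1 hp1).2, (abs_le.1 hp0).1]
  rw [hL] at hsum
  rw [hfin]
  have hQ' : Real.sqrt C₀ * Real.sqrt (∑ k, (μ k - m k) ^ 2 / m k)
      * Real.sqrt (∑ k, m k * ‖y' k - y k‖ ^ 2) = Q := by
    rw [hQdef]
    simp only [hdy]
  have hE' : ∑ k, m k * ‖y' k - y k‖ = ∑ k, m k * ‖dy k‖ := by simp only [hdy]
  rw [hQ', hE']
  nlinarith [mul_le_mul_of_nonneg_left hPP hη.le]

/-! ### Duality: testing the difference of the weights against mean-zero directions -/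

lemma key {K : Set (E d)} (hK : IsCompact K) (hconv : Convex ℝ K)
    (hint : (interior K).Nonempty) (hex : ExStatement d) (hcont : ContStatement d) {C₀ : ℝ}
    (hC₀ : 0 ≤ C₀)
    (hcen : ∀ (n : ℕ) (y : Fin (n + 1) → E d) (ψ ψ' : Fin (n + 1) → ℝ),
      Function.Injective y → (∀ k, 0 < cmass K y ψ k) →
      (∀ k, |cmass K y ψ' k - cmass K y ψ k| ≤ cmass K y ψ k / 2) →
      ∑ k, ‖cmom K y ψ' k - cmom K y ψ k‖ ^ 2 / cmass K y ψ k
        ≤ C₀ * ∑ k, (cmass K y ψ' k - cmass K y ψ k) ^ 2 / cmass K y ψ k)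
    {n : ℕ} (y y' : Fin (n + 1) → E d) (ψ ψ' : Fin (n + 1) → ℝ) (hy : Function.Injective y)
    (hy' : Function.Injective y') (hpos : ∀ k, 0 < cmass K y ψ k)
    (hm : ∀ k, cmass K y' ψ' k = cmass K y ψ k) (ν : Fin (n + 1) → ℝ) (hν : ∑ k, ν k = 0) :
    ∑ k, ν k * (ψ k - ψ' k) ≤ Real.sqrt C₀ * Real.sqrt (∑ k, ν k ^ 2 / cmass K y ψ k)
      * Real.sqrt (∑ k, cmass K y ψ k * ‖y' k - y k‖ ^ 2) := by
  obtain ⟨D, hD⟩ := hK.isBounded.exists_norm_le
  obtain ⟨m, hmdef⟩ : ∃ m : Fin (n + 1) → ℝ, ∀ k, m k = cmass K y ψ k := ⟨_, fun _ => rfl⟩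
  simp only [← hmdef] at hpos hm ⊢
  have hmsum : ∑ k, m k = 1 := by
    simp only [hmdef]
    exact sum_cmass hK hint hy ψ
  have hψm : ∀ k, cmass K y ψ k = m k := fun k => (hmdef k).symm
  obtain ⟨A, hA⟩ : ∃ A : ℝ, A = Real.sqrt (∑ k, ν k ^ 2 / m k) := ⟨_, rfl⟩
  obtain ⟨W, hW⟩ : ∃ W : ℝ, W = Real.sqrt (∑ k, m k * ‖y' k - y k‖ ^ 2) := ⟨_, rfl⟩
  rw [← hA, ← hW]
  have hA0 : 0 ≤ A := by rw [hA]; positivity
  have hW0 : 0 ≤ W := by rw [hW]; positivity
  obtain ⟨S, hS⟩ : ∃ S : ℝ, S = ∑ k, |ν k| / m k := ⟨_, rfl⟩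
  have hS0 : 0 ≤ S := by
    rw [hS]
    exact Finset.sum_nonneg fun k _ => div_nonneg (abs_nonneg _) (hpos k).le
  obtain ⟨ε₀, hε₀def⟩ : ∃ ε₀ : ℝ, ε₀ = 1 / (2 * (1 + S)) := ⟨_, rfl⟩
  have hε₀ : 0 < ε₀ := by rw [hε₀def]; positivity
  have hε₀S : ε₀ * S ≤ 1 / 2 := by
    rw [hε₀def, div_mul_eq_mul_div, one_mul, div_le_div_iff₀ (by positivity) (by norm_num)]
    linarith
  have hsmall : ∀ ε, 0 < ε → ε ≤ ε₀ → ∀ k, |ε * ν k| ≤ m k / 2 := by
    intro ε hε hle k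
    have h1 : |ν k| / m k ≤ S := by
      rw [hS]
      exact Finset.single_le_sum (f := fun k => |ν k| / m k)
        (fun k _ => div_nonneg (abs_nonneg _) (hpos k).le) (Finset.mem_univ k)
    have h2 : |ν k| ≤ S * m k := by rwa [div_le_iff₀ (hpos k)] at h1
    rw [abs_mul, abs_of_pos hε]
    have h3 : ε * |ν k| ≤ ε₀ * (S * m k) := mul_le_mul hle h2 (abs_nonneg _) hε₀.le
    nlinarith [(hpos k).le]
  -- the estimate for a perturbed diagram at the sites `y`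
  have step : ∀ ε, 0 < ε → ε ≤ ε₀ → ∀ ψe : Fin (n + 1) → ℝ,
      (∀ k, cmass K y ψe k = m k + ε * ν k) →
      ∑ k, ν k * (ψe k - ψ' k) ≤ Real.sqrt C₀ * A * W := by
    intro ε hε hle ψe hψe
    have hμsum : ∑ k, (m k + ε * ν k) = 1 := by
      rw [Finset.sum_add_distrib, ← Finset.mul_sum, hν, hmsum]
      ring
    have hμ : ∀ k, |(m k + ε * ν k) - m k| ≤ m k / 2 := fun k => by
      have := hsmall ε hε hle k
      rwa [add_sub_cancel_left]
    have e1 : ∑ k, ((m k + ε * ν k) - m k) ^ 2 / m k = ε ^ 2 * ∑ k, ν k ^ 2 / m k := by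
      rw [Finset.mul_sum]
      exact Finset.sum_congr rfl fun k _ => by ring
    have e2 : Real.sqrt (ε ^ 2 * ∑ k, ν k ^ 2 / m k) = ε * A := by
      rw [Real.sqrt_mul (sq_nonneg ε), Real.sqrt_sq hε.le, hA]
    have e3 : ∑ k, ((m k + ε * ν k) - m k) * (ψ' k - ψe k)
        = -(ε * ∑ k, ν k * (ψe k - ψ' k)) := by
      rw [Finset.mul_sum, ← Finset.sum_neg_distrib]
      exact Finset.sum_congr rfl fun k _ => by ring
    obtain ⟨E₀, hE₀⟩ : ∃ E₀ : ℝ, E₀ = 2 * D * ∑ k, m k * ‖y' k - y k‖ := ⟨_, rfl⟩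
    have hmix : ∀ η, 0 < η →
        -(Real.sqrt C₀ * (ε * A) * W) - η * E₀ ≤ -(ε * ∑ k, ν k * (ψe k - ψ' k)) := by
      intro η hη
      have h := mixed hK hconv hint hex hC₀ hcen hD y y' ψ' ψe m (fun k => m k + ε * ν k)
        hy hy' hpos hmsum hμsum hμ hm hψe η hη
      rw [e1, e2, e3, ← hW, ← hE₀] at h
      exact h
    have h4 : ε * ∑ k, ν k * (ψe k - ψ' k) ≤ Real.sqrt C₀ * (ε * A) * W := by
      by_contra hcon
      push Not at hcon
      obtain ⟨gap, hgap⟩ : ∃ gap : ℝ,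
          gap = ε * ∑ k, ν k * (ψe k - ψ' k) - Real.sqrt C₀ * (ε * A) * W := ⟨_, rfl⟩
      have hgap0 : 0 < gap := by rw [hgap]; linarith
      have h := hmix (gap / (2 * (|E₀| + 1))) (by positivity)
      have h5 : gap / (2 * (|E₀| + 1)) * E₀ ≤ gap / 2 := by
        have h6 : gap / (2 * (|E₀| + 1)) * E₀ ≤ gap / (2 * (|E₀| + 1)) * (|E₀| + 1) :=
          mul_le_mul_of_nonneg_left (by linarith [le_abs_self E₀]) (by positivity)
        have h7 : gap / (2 * (|E₀| + 1)) * (|E₀| + 1) = gap / 2 := by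
          field_simp
        linarith
      linarith
    have h5 : ε * ∑ k, ν k * (ψe k - ψ' k) ≤ ε * (Real.sqrt C₀ * A * W) := by
      have : Real.sqrt C₀ * (ε * A) * W = ε * (Real.sqrt C₀ * A * W) := by ring
      linarith
    exact le_of_mul_le_mul_left h5 hε
  -- continuity of the weights in the masses
  refine le_of_forall_pos_le_add fun δ hδ => ?_
  obtain ⟨T, hT⟩ : ∃ T : ℝ, T = ∑ k, |ν k| := ⟨_, rfl⟩
  have hT0 : 0 ≤ T := by rw [hT]; exact Finset.sum_nonneg fun k _ => abs_nonneg _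
  obtain ⟨θ, hθ, hcontθ⟩ := hcont K hK hconv hint n y hy ψ
    (fun k => by rw [hψm k]; exact hpos k) (δ / (1 + T)) (by positivity)
  obtain ⟨ε, hεdef⟩ : ∃ ε : ℝ, ε = min ε₀ (θ / (2 * (1 + T))) := ⟨_, rfl⟩
  have hε : 0 < ε := by rw [hεdef]; exact lt_min hε₀ (by positivity)
  have hεle : ε ≤ ε₀ := by rw [hεdef]; exact min_le_left _ _
  have hεθ : ε * T < θ := by
    have h1 : ε ≤ θ / (2 * (1 + T)) := by rw [hεdef]; exact min_le_right _ _
    have h2 : ε * T ≤ θ / (2 * (1 + T)) * T := mul_le_mul_of_nonneg_right h1 hT0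
    have h3 : θ / (2 * (1 + T)) * T = θ * (T / (2 * (1 + T))) := by ring
    have h4 : T / (2 * (1 + T)) < 1 := by
      rw [div_lt_one (by positivity)]
      linarith
    have h5 : θ * (T / (2 * (1 + T))) < θ * 1 := mul_lt_mul_of_pos_left h4 hθ
    linarith
  have hμpos : ∀ k, 0 < m k + ε * ν k := fun k => by
    have := abs_le.1 (hsmall ε hε hεle k)
    linarith [hpos k]
  have hμsum : ∑ k, (m k + ε * ν k) = 1 := by
    rw [Finset.sum_add_distrib, ← Finset.mul_sum, hν, hmsum]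
    ring
  obtain ⟨ψe, hψe⟩ := hex K hK hconv hint n y hy (fun k => m k + ε * ν k) hμpos hμsum
  obtain ⟨c, hc⟩ := hcontθ ψe (by
    have : ∑ k, |cmass K y ψe k - cmass K y ψ k| = ε * T := by
      rw [hT, Finset.mul_sum]
      refine Finset.sum_congr rfl fun k _ => ?_
      rw [hψe k, hψm k, add_sub_cancel_left, abs_mul, abs_of_pos hε]
    rw [this]
    exact hεθ)
  have h1 := step ε hε hεle ψe hψe
  have h2 : ∑ k, ν k * (ψ k - ψe k) ≤ δ := by
    have e : ∑ k, ν k * (ψ k - ψe k) = ∑ k, ν k * (-(ψe k - ψ k - c)) := by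
      have : ∑ k, ν k * (-(ψe k - ψ k - c)) = ∑ k, ν k * (ψ k - ψe k) + c * ∑ k, ν k := by
        rw [Finset.mul_sum, ← Finset.sum_add_distrib]
        exact Finset.sum_congr rfl fun k _ => by ring
      rw [this, hν, mul_zero, add_zero]
    rw [e]
    have h3 : ∑ k, ν k * (-(ψe k - ψ k - c)) ≤ ∑ k, |ν k| * (δ / (1 + T)) := by
      refine Finset.sum_le_sum fun k _ => ?_
      calc ν k * (-(ψe k - ψ k - c)) ≤ |ν k * (-(ψe k - ψ k - c))| := le_abs_self _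
        _ = |ν k| * |ψe k - ψ k - c| := by rw [abs_mul, abs_neg]
        _ ≤ |ν k| * (δ / (1 + T)) := mul_le_mul_of_nonneg_left (hc k).le (abs_nonneg _)
    have h4 : ∑ k, |ν k| * (δ / (1 + T)) = T * (δ / (1 + T)) := by
      rw [hT, Finset.sum_mul]
    have h5 : T * (δ / (1 + T)) ≤ δ := by
      have : T * (δ / (1 + T)) = δ * (T / (1 + T)) := by ring
      rw [this]
      have h6 : T / (1 + T) ≤ 1 := by
        rw [div_le_one (by positivity)]
        linarith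
      nlinarith
    linarith
  have h3 : ∑ k, ν k * (ψ k - ψ' k) = ∑ k, ν k * (ψ k - ψe k) + ∑ k, ν k * (ψe k - ψ' k) := by
    rw [← Finset.sum_add_distrib]
    exact Finset.sum_congr rfl fun k _ => by ring
  linarith

end Lip

open Lip in
/-- The weights of a power diagram with fixed cell masses are Lipschitz in the sites. -/
theorem lip_of_centroid (d : ℕ) (hcen : CentroidStatement d) (hex : ExStatement d)
    (hcont : ContStatement d) : LipStatement d := by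
  intro K hK hconv hint
  obtain ⟨C₀, hC₀, hcenK⟩ := hcen K hK hconv hint
  refine ⟨C₀, hC₀, fun n y y' ψ ψ' hy hy' hpos hm => ?_⟩
  obtain ⟨m, hmdef⟩ : ∃ m : Fin (n + 1) → ℝ, ∀ k, m k = cmass K y ψ k := ⟨_, fun _ => rfl⟩
  have hmsum : ∑ k, m k = 1 := by
    simp only [hmdef]
    exact sum_cmass hK hint hy ψ
  have hmpos : ∀ k, 0 < m k := fun k => by rw [hmdef]; exact hpos k
  obtain ⟨δb, hδb⟩ : ∃ δb : ℝ, δb = ∑ k, m k * (ψ k - ψ' k) := ⟨_, rfl⟩
  obtain ⟨ν, hνdef⟩ : ∃ ν : Fin (n + 1) → ℝ, ∀ k, ν k = m k * (ψ k - ψ' k - δb) :=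
    ⟨_, fun _ => rfl⟩
  have hν : ∑ k, ν k = 0 := by
    have : ∑ k, ν k = ∑ k, m k * (ψ k - ψ' k) - δb * ∑ k, m k := by
      rw [Finset.mul_sum, ← Finset.sum_sub_distrib]
      exact Finset.sum_congr rfl fun k _ => by rw [hνdef]; ring
    rw [this, hmsum, ← hδb]
    ring
  have hkey := key hK hconv hint hex hcont hC₀ hcenK y y' ψ ψ' hy hy' hpos hm ν hν
  simp only [← hmdef] at hkey ⊢
  obtain ⟨V, hV⟩ : ∃ V : ℝ, V = ∑ k, m k * (ψ k - ψ' k - δb) ^ 2 := ⟨_, rfl⟩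
  have hV0 : 0 ≤ V := by
    rw [hV]
    exact Finset.sum_nonneg fun k _ => mul_nonneg (hmpos k).le (sq_nonneg _)
  have e1 : ∑ k, ν k * (ψ k - ψ' k) = V := by
    have : ∑ k, ν k * (ψ k - ψ' k) = V + δb * ∑ k, ν k := by
      rw [hV, Finset.mul_sum, ← Finset.sum_add_distrib]
      exact Finset.sum_congr rfl fun k _ => by rw [hνdef]; ring
    rw [this, hν, mul_zero, add_zero]
  have e2 : ∑ k, ν k ^ 2 / m k = V := by
    rw [hV]
    refine Finset.sum_congr rfl fun k _ => ?_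
    rw [hνdef]
    have := (hmpos k).ne'
    field_simp
  rw [e1, e2] at hkey
  obtain ⟨W2, hW2⟩ : ∃ W2 : ℝ, W2 = ∑ k, m k * ‖y' k - y k‖ ^ 2 := ⟨_, rfl⟩
  have hW20 : 0 ≤ W2 := by
    rw [hW2]
    exact Finset.sum_nonneg fun k _ => mul_nonneg (hmpos k).le (sq_nonneg _)
  rw [← hW2] at hkey ⊢
  refine ⟨-δb, ?_⟩
  have e3 : ∑ k, m k * (ψ' k - ψ k - -δb) ^ 2 = V := by
    rw [hV]
    exact Finset.sum_congr rfl fun k _ => by ring
  rw [e3]
  -- `V ≤ √C₀ √V √W2` implies `V ≤ C₀ W2`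
  have h1 : Real.sqrt C₀ * Real.sqrt V * Real.sqrt W2 = Real.sqrt (C₀ * V * W2) := by
    rw [Real.sqrt_mul (mul_nonneg hC₀ hV0), Real.sqrt_mul hC₀]
  rw [h1] at hkey
  have h2 : V ^ 2 ≤ C₀ * V * W2 := by
    exact (Real.le_sqrt hV0 (mul_nonneg (mul_nonneg hC₀ hV0) hW20)).1 hkey
  rcases hV0.eq_or_lt with h0 | hpos'
  · rw [← h0]
    positivity
  · have h3 : V * V ≤ V * (C₀ * W2) := by nlinarith
    exact le_of_mul_le_mul_left h3 hpos'

end Vale.Agent.Lib.P074
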